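import Vale.Agent.P277Z.Oka.All
import Vale.Agent.P267.H823.Puiseux

/-!
# Complex curve selection

If a holomorphic germ `f` does not vanish identically on the zero set of finitely many holomorphic
germs `h i` near `x`, then there is a holomorphic arc through `x` inside the zero set on which `f`
does not vanish (off the origin).
-/

open Filter Topology Polynomial
open Vale.Agent.P298.H941 Vale.Agent.P277Z.Oka

noncomputable section

namespace Vale.Agent.Lib.Loja

/-- a holomorphic arc through `x` inside the zero set of `h`, on which `f` has no zero besides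
possibly the origin -/
def Arc {E : Type} [NormedAddCommGroup E] [NormedSpace ℂ E] {ι : Type} (x : E) (h : ι → E → ℂ)
    (f : E → ℂ) : Prop :=
  ∃ γ : ℂ → E, AnalyticAt ℂ γ 0 ∧ γ 0 = x ∧ (∀ i, ∀ᶠ s in 𝓝 (0 : ℂ), h i (γ s) = 0) ∧
    ∀ᶠ s in 𝓝[≠] (0 : ℂ), f (γ s) ≠ 0

theorem tendsto_pow_ne {N : ℕ} (hN : 0 < N) :
    Tendsto (fun s : ℂ => s ^ N) (𝓝[≠] 0) (𝓝[≠] 0) :=
  tendsto_nhdsWithin_iff.2 ⟨(P267.H823.Puiseux.tendsto_pow hN).mono_left nhdsWithin_le_nhds,
    eventually_nhdsWithin_of_forall fun _ hs => pow_ne_zero N hs⟩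

/-- a function continuous at `0` which vanishes near `0` off `0` vanishes near `0` -/
theorem ev_of_punct {φ : ℂ → ℂ} (hφ : ContinuousAt φ 0) (h : ∀ᶠ s in 𝓝[≠] (0 : ℂ), φ s = 0) :
    ∀ᶠ s in 𝓝 (0 : ℂ), φ s = 0 := by
  have h0 : φ 0 = 0 :=
    tendsto_nhds_unique (hφ.tendsto.mono_left (nhdsWithin_le_nhds (s := {0}ᶜ)))
      (tendsto_const_nhds.congr' (h.mono fun _ e => e.symm))
  rw [← nhdsNE_sup_pure, eventually_sup]
  exact ⟨h, h0⟩

/-- a small root of a polynomial family can be followed after a ramification -/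
theorem exists_root {G : ℂ → ℂ[X]} {d : ℕ} (hd : 0 < d) (hdeg : ∀ s, (G s).natDegree ≤ d)
    (hG : ∀ i, AnalyticAt ℂ (fun s => (G s).coeff i) 0)
    (ha : ∀ᶠ s in 𝓝[≠] (0 : ℂ), (G s).coeff d ≠ 0)
    (hs : ∀ ε > 0, ∀ᶠ s in 𝓝[≠] (0 : ℂ), ∀ t, (G s).eval t = 0 → ‖t‖ < ε) :
    ∃ N : ℕ, 0 < N ∧ ∃ τ : ℂ → ℂ, AnalyticAt ℂ τ 0 ∧ τ 0 = 0 ∧
      ∀ᶠ s in 𝓝[≠] (0 : ℂ), (G (s ^ N)).eval (τ s) = 0 := by
  classical
  set P : ℂ → ℂ[X] := fun s => P267.H823.Puiseux.mk
    (fun i : Fin d => (G s).coeff i * (G s).coeff d ^ (d - 1 - i)) with hP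
  have key : ∀ s t, (P s).eval ((G s).coeff d * t) = (G s).coeff d ^ (d - 1) * (G s).eval t := by
    intro s t
    rw [eval_eq_sum_range' (Nat.lt_succ_of_le (hdeg s)), Finset.sum_range_succ, mul_add,
      Finset.mul_sum, hP]
    simp only [P267.H823.Puiseux.mk, eval_add, eval_pow, eval_X, eval_finsetSum, eval_mul, eval_C]
    rw [Finset.sum_range (fun i => (G s).coeff d ^ (d - 1) * ((G s).coeff i * t ^ i)), add_comm]
    congr 1
    · refine Finset.sum_congr rfl fun i _ => ?_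
      have e : d - 1 = (d - 1 - i) + i := by omega
      conv_rhs => rw [e, pow_add]
      ring
    · obtain ⟨e, rfl⟩ : ∃ e, d = e + 1 := ⟨d - 1, by omega⟩
      simp only [Nat.add_sub_cancel]
      ring
  obtain ⟨N, hN, β, h1, h2⟩ := P267.H823.puiseux (d := d) (P := P)
    (fun s => P267.H823.Puiseux.mk_monic _) (fun i => by
      rcases lt_trichotomy i d with r | rfl | r
      · have : (fun s => (P s).coeff i) = fun s => (G s).coeff i * (G s).coeff d ^ (d - 1 - i) :=
          funext fun s => P267.H823.Puiseux.coeff_mk _ ⟨i, r⟩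
        rw [this]
        exact (hG i).fun_mul ((hG d).fun_pow _)
      · have : (fun s => (P s).coeff i) = fun _ => 1 := funext fun s => by
          have := P267.H823.Puiseux.mk_monic
            (fun j : Fin i => (G s).coeff j * (G s).coeff i ^ (i - 1 - j))
          have e := this.1.coeff_natDegree
          rwa [this.2] at e
        rw [this]
        exact analyticAt_const
      · have : (fun s => (P s).coeff i) = fun _ => 0 := funext fun s =>
          coeff_eq_zero_of_natDegree_lt (by rw [(P267.H823.Puiseux.mk_monic _).2]; exact r)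
        rw [this]
        exact analyticAt_const)
  set a : ℂ → ℂ := fun s => (G (s ^ N)).coeff d with haa
  have a1 : AnalyticAt ℂ a 0 := P267.H823.Puiseux.analyticAt_comp_pow (hG d) hN
  have a2 : ∀ᶠ s in 𝓝[≠] (0 : ℂ), a s ≠ 0 := (tendsto_pow_ne hN).eventually ha
  set σ : ℂ → ℂ := fun s => β ⟨0, hd⟩ s / a s with hσ
  have r1 : ∀ᶠ s in 𝓝[≠] (0 : ℂ), (G (s ^ N)).eval (σ s) = 0 := by
    filter_upwards [a2, h2.filter_mono nhdsWithin_le_nhds] with s e1 e2
    have e3 := key (s ^ N) (σ s)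
    have e4 : (G (s ^ N)).coeff d * σ s = β ⟨0, hd⟩ s := mul_div_cancel₀ _ e1
    rw [e4, e2, eval_prod, Finset.prod_eq_zero (Finset.mem_univ ⟨0, hd⟩) (by simp)] at e3
    exact (mul_eq_zero.1 e3.symm).resolve_left (pow_ne_zero _ e1)
  have r2 : Tendsto σ (𝓝[≠] 0) (𝓝 0) := by
    refine Metric.tendsto_nhds.2 fun ε hε => ?_
    filter_upwards [r1, (tendsto_pow_ne hN).eventually (hs ε hε)] with s e1 e2
    simpa using e2 _ e1
  have r3 : ∀ᶠ s in 𝓝[≠] (0 : ℂ), Function.update σ 0 0 s = σ s :=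
    eventually_nhdsWithin_of_forall fun s hs => Function.update_of_ne hs _ _
  refine ⟨N, hN, Function.update σ 0 0, ?_, Function.update_self _ _ _, ?_⟩
  · refine Complex.analyticAt_of_differentiable_on_punctured_nhds_of_continuousAt ?_
      (continuousAt_update_same.2 r2)
    filter_upwards [a2, (a1.eventually_analyticAt.and
      (h1 ⟨0, hd⟩).eventually_analyticAt).filter_mono nhdsWithin_le_nhds,
      self_mem_nhdsWithin] with s e1 e2 e3
    refine ((e2.2.fun_div e2.1 e1).differentiableAt).congr_of_eventuallyEq ?_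
    filter_upwards [isOpen_compl_singleton.mem_nhds e3] with w hw
    exact Function.update_of_ne hw _ _
  · filter_upwards [r1, r3] with s e1 e2
    rwa [e2]

variable {E : Type} [NormedAddCommGroup E] [NormedSpace ℂ E]

/-- a germ which is not zero is not zero on some line -/
theorem exists_line {x : E} {f : E → ℂ} (hf : AnalyticAt ℂ f x) (h : ¬ ∀ᶠ y in 𝓝 x, f y = 0) :
    ∃ η : E, ∀ᶠ s in 𝓝[≠] (0 : ℂ), f (x + s • η) ≠ 0 := by
  obtain ⟨r, hr, hb⟩ := Metric.eventually_nhds_iff_ball.1 hf.eventually_analyticAt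
  obtain ⟨y₁, hy₁, hj⟩ : ∃ y ∈ Metric.ball x r, f y ≠ 0 := by
    by_contra! k
    exact h (by filter_upwards [Metric.ball_mem_nhds x hr] with y hy using k y hy)
  set η : E := y₁ - x with hη
  have l : ∀ t : ℂ, AnalyticAt ℂ (fun s : ℂ => x + s • η) t := fun t =>
    analyticAt_const.add (analyticAt_id.smul analyticAt_const)
  have ha : AnalyticOnNhd ℂ (fun t : ℂ => f (x + t • η)) {t : ℂ | x + t • η ∈ Metric.ball x r} :=
    fun t ht => (hb _ ht).comp_of_eq (l t) rfl
  have hc : Convex ℝ {t : ℂ | x + t • η ∈ Metric.ball x r} := by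
    intro u hu v hv a b h1 h2 h3
    have := convex_ball x r hu hv h1 h2 h3
    show x + (a • u + b • v) • η ∈ Metric.ball x r
    convert this using 1
    rw [smul_add, smul_add, add_smul, smul_assoc, smul_assoc, add_add_add_comm, ← add_smul, h3,
      one_smul]
  have h0 : (0 : ℂ) ∈ {t : ℂ | x + t • η ∈ Metric.ball x r} := by simpa using hr
  refine ⟨η, ((ha 0 h0).eventually_eq_zero_or_eventually_ne_zero).resolve_left fun k => hj ?_⟩
  have := ha.eqOn_zero_of_preconnected_of_eventuallyEq_zero hc.isPreconnected h0 k (x := 1)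
    (by simpa [hη, dist_eq_norm] using hy₁)
  simpa [hη] using this

/-- arcs for prime ideals -/
def ArcP (E : Type) [NormedAddCommGroup E] [NormedSpace ℂ E] : Prop :=
  ∀ (ι : Type) [Fintype ι] (x : E) (h : ι → E → ℂ), Pr x h →
    ∀ f, AnalyticAt ℂ f x → ¬ In x h f → Arc x h f

theorem arc_step {Y : Type} [NormedAddCommGroup Y] [NormedSpace ℂ Y] {ι : Type} [Fintype ι]
    {h : ι → ℂ × Y → ℂ} {m : ℕ} {h' : Fin m → Y → ℂ} {d : ℕ} {g : Y → ℂ[X]} (IH : ArcP Y)
    (hh : ∀ i, AnalyticAt ℂ (h i) 0) (T : Tri Y h h' d g) {f : ℂ × Y → ℂ} (hf : AnalyticAt ℂ f 0)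
    (hn : ¬ In 0 h f) : Arc 0 h f := by
  obtain ⟨r, hr, hr', hin⟩ := T.norm f hf hn
  obtain ⟨γ, g1, g2, g3, g4⟩ := IH _ 0 h' T.pr (fun y => (g y).coeff d * r y)
    ((T.pfg.ana d).fun_mul hr) fun k => (T.pr.mul _ r (T.pfg.ana d) hr k).elim T.lead hr'
  have t1 : Tendsto γ (𝓝 0) (𝓝 0) := g2 ▸ g1.continuousAt.tendsto
  have z1 : ∀ᶠ s in 𝓝 (0 : ℂ), γ s ∈ Zs h' := eventually_all.2 g3
  obtain ⟨N, hN, τ, k1, k2, k3⟩ := exists_root (G := fun s => g (γ s)) T.pos
    (fun s => T.pfg.deg _) (fun i => (T.pfg.ana i).comp_of_eq g1 g2)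
    (g4.mono fun s e => left_ne_zero_of_mul e) (fun ε hε => by
      filter_upwards [g4, (z1.and (t1.eventually (T.small ε hε))).filter_mono nhdsWithin_le_nhds]
        with s e1 e2 using e2.2 e2.1 (left_ne_zero_of_mul e1))
  have c1 : AnalyticAt ℂ (fun s => (τ s, γ (s ^ N))) 0 :=
    k1.prod (P267.H823.Puiseux.analyticAt_comp_pow g1 hN)
  have c2 : (fun s => (τ s, γ (s ^ N))) 0 = 0 := by simp [k2, hN.ne', g2]
  have t2 : Tendsto (fun s => (τ s, γ (s ^ N))) (𝓝 0) (𝓝 0) := c2 ▸ c1.continuousAt.tendsto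
  have z2 : ∀ᶠ s in 𝓝[≠] (0 : ℂ), (τ s, γ (s ^ N)) ∈ Zs h := by
    filter_upwards [k3, (tendsto_pow_ne hN).eventually g4,
      ((t2.eventually (Nug.key T)).and
        ((P267.H823.Puiseux.tendsto_pow hN).eventually z1)).filter_mono nhdsWithin_le_nhds]
      with s e1 e2 e3 using e3.1 e1 e3.2 (left_ne_zero_of_mul e2)
  refine ⟨_, c1, c2, fun i => ev_of_punct ((hh i).comp_of_eq c1 c2).continuousAt
    (z2.mono fun s e => e i), ?_⟩
  filter_upwards [z2, (tendsto_pow_ne hN).eventually g4,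
    (t2.eventually hin.van).filter_mono nhdsWithin_le_nhds] with s e1 e2 e3 e4
  exact right_ne_zero_of_mul e2 (e3 (Option.forall.2 ⟨e4, e1⟩))

theorem arcP_all : All ArcP := Nug.ind fun E _ _ _ IH ι _ x h hP f hf hn => by
  rcases Nug.cases pst_all hP with k | ⟨q, L, m, h', d, g, e, T⟩
  · obtain ⟨η, hη⟩ := exists_line hf fun k' => hn ((In.zero x h).congr (k'.mono fun _ e => e.symm))
    have l : AnalyticAt ℂ (fun s : ℂ => x + s • η) 0 :=
      analyticAt_const.add (analyticAt_id.smul analyticAt_const)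
    have t : Tendsto (fun s : ℂ => x + s • η) (𝓝 0) (𝓝 x) := by
      simpa using l.continuousAt.tendsto
    exact ⟨_, l, by simp, fun i => (t.eventually k).mono fun s e => e i, hη⟩
  · obtain ⟨γ, g1, g2, g3, g4⟩ := arc_step (IH q e) (hP.aff x L).ana T
      (hf.comp_of_eq (ana_aff x L 0) (aff_zero x L)) fun k => hn (by
        have := (in_aff x L 0).1 k
        rwa [aff_zero] at this)
    exact ⟨fun s => aff x L (γ s), (ana_aff x L _).comp g1, by simp [g2], g3, g4⟩

/-- **Complex curve selection**, for an element outside the radical. -/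
theorem arc_of_not_rad [FiniteDimensional ℂ E] {ι : Type} [Fintype ι] {x : E} {h : ι → E → ℂ}
    (hh : ∀ i, AnalyticAt ℂ (h i) x) {f : E → ℂ} (hf : AnalyticAt ℂ f x)
    (hn : ∀ N : ℕ, ¬ In x h fun y => f y ^ N) : Arc x h f := by
  have key : gm x f ∉ (idl x h).radical := fun ⟨N, hN⟩ =>
    hn N ((in_iff hh (hf.fun_pow N)).2 (by rwa [gm_pow hf]))
  rw [Ideal.radical_eq_sInf, Submodule.mem_sInf] at key
  push Not at key
  obtain ⟨P, ⟨hle, hP⟩, hf'⟩ := key
  haveI := noe E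
  obtain ⟨m, k, hk, rfl⟩ := exists_idl x (IsNoetherian.noetherian P)
  obtain ⟨γ, g1, g2, g3, g4⟩ := arcP_all E _ x k ((pr_iff hk).2 hP) f hf
    fun e => hf' ((in_iff hk hf).1 e)
  have t : Tendsto γ (𝓝 0) (𝓝 x) := g2 ▸ g1.continuousAt.tendsto
  refine ⟨γ, g1, g2, fun i => ?_, g4⟩
  have : In x k (h i) := (in_iff hk (hh i)).2 (hle (Ideal.subset_span ⟨i, rfl⟩))
  filter_upwards [t.eventually this.van, eventually_all.2 g3] with s e1 e2 using e1 e2

/-- **Complex curve selection.** -/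
theorem curve [FiniteDimensional ℂ E] {ι : Type} [Fintype ι] {x : E} {h : ι → E → ℂ}
    (hh : ∀ i, AnalyticAt ℂ (h i) x) {f : E → ℂ} (hf : AnalyticAt ℂ f x)
    (hv : ¬ Van x (Zs h) f) : Arc x h f :=
  arc_of_not_rad hh hf fun _ k => hv (k.van.mono fun _ e e' => eq_zero_of_pow_eq_zero (e e'))

end Vale.Agent.Lib.Loja
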